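import Crest.Agent.X212.Abx52.Ntb
import Crest.Agent.X212.Nrx5.H1
import Crest.Agent.X212.Lns95.Fin
import Crest.Agent.X212.Ax1.La
import Crest.Agent.X212.Nt9.Num
import Crest.Agent.X212.Num57.Nti
import Crest.Agent.X212.Dir17.Cki
import Crest.Agent.X212.Mp86.Ou
import Crest.Agent.X212.Nt93.Trf
import Crest.Agent.X212.Ncm43.Cmp
import Crest.Agent.X212.Top11.RowA_Mg
import Crest.Agent.X212.Nk54.Main

/-!
# Row 212, RF-NT
-/

set_option autoImplicit false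
noncomputable section

namespace Crest.Agent.X212.Nti57
open scoped Manifold ContDiff Topology
open MeasureTheory Set Function Filter
open An M Nd18 Mod61 Nk89 Cht98 Rf65 Rdc90 Pte3 Eqv71 Wrd81 Spl54 Nt66
open G75 Ins26
variable {κ lam : Type} [Fintype κ] [Fintype lam] [DecidableEq lam] {Lm : LM κ lam}

/-- `Nti57.idx` without the unused hypotheses -/
theorem idx' : NfStmt Lm Idx2 := fun _ _ _ _ r _ J _ _ _ _ _ c G _ hP => by
  obtain ⟨δ₀, h0, h1⟩ := exists_fz J c G.ok hP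
  refine ⟨δ₀, h0, fun δ hδ => .of fun _ σ q y l b E x ψ C => ?_⟩
  have ch := C.gd.ch
  have k := fun (P' : Set _) (s : P' ⊆ {hp l.1 false}) => idx_res C.cs (C.θ ▸ C.cs.ovx x) ch hP (h1 δ hδ).2.2
    sub_in s (s.trans sub_in) (C.h1.spl.ex y _ _ (fun π k => C.cs.pok.pc π (sub_in k)) s
      (go_mono ch.go sub_in)) (min r 1)
  have k1 := k ∅ (empty_subset _)
  have k2 := k _ Subset.rfl
  simp only [ix, finsum_mem_singleton, finsum_mem_empty, add_zero] at k1 k2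
  exact ⟨ok_res C.cs ch.z x.ht ∅, k1, k2⟩

end Crest.Agent.X212.Nti57

namespace Crest.Agent.X212.Ntb52
open An G75 Rf65 Nt66

variable {κ lam : Type} [Fintype κ] [Fintype lam] [DecidableEq lam] {Lm : LM κ lam}

theorem on (o : NfStmt Lm Out) (ix : NfStmt Lm Idx2) (d : NfStmt Lm Dir) (nm : NfStmt Lm Num)
    (ck : NfStmt Lm Cki) (la : NfStmt Lm LocA) (lf : NfStmt Lm LocF) : NfStmt Lm On :=
  nf_mp (nf_mp (nf_mp (nf_mp (nf_mp (nf_mp (nf_mp (nf_of fun C o ix d (nm : Num C) ck la lf => by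
    classical exact Nrx5.h1 C o ix d nm.2.2 ck la lf) o) ix) d) nm) ck) la) lf

/-- **RF-NT** -/
theorem ntStmt (H : Lns95.LH Lm) : NtStmt Lm :=
  have L := Lns95.lv0 H
  nt Abx52.cx (on (Mp86.Ou.out (fun _ => Nt93.trf) fun _ _ _ _ _ _ _ _ => Ncm43.cmp) Nti57.idx'
      (Dir17.dir L.lok) (Nt9.num Lm) (Dir17.cki L.lok.choose) Ax1.Lf.locA Ax1.Lf.locF)
    (Nt9.num Lm) Nti57.idx' (Abx52.abx L) (Dir17.dir L.lok) (Nk54.ker L.geo) Abx52.sop
    (Abx52.rwj fun _ => Top11.Rw.row0) (Hp13.Rcj.rcj fun _ => For74.for_ _ _ _ _) Ax1.Lf.locA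

end Crest.Agent.X212.Ntb52
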