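import Crest.Agent.X212.Chg68.Fin
import Crest.Agent.X212.Qab60.Qz
import Crest.Agent.X212.Nrx5.Fin
import Crest.Agent.X212.Cyl58.Tad
import Crest.Agent.X212.Ax1.La
import Crest.Agent.X212.Hsa39.La
import Crest.Agent.X212.Rf65.Fn2
import Crest.Agent.X212.Top11.AlcA
import Crest.Agent.X212.Alc32.B
import Crest.Agent.X212.Alc32.C
import Crest.Agent.X212.Nt64.Abs
import Crest.Agent.X212.Nta64.Job
import Crest.Agent.X212.Abx52.Ntb
import Crest.Agent.X212.Nrx5.H1
import Crest.Agent.X212.Nt9.Num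
import Crest.Agent.X212.Dir17.Cki
import Crest.Agent.X212.Mp86.OuB
import Crest.Agent.X212.Mp86.Ou
import Crest.Agent.X212.Nk54.Lim
import Crest.Agent.X212.Nk54.Geo
import Crest.Agent.X212.Nk54.Fam
import Crest.Agent.X212.Nk54.End
import Crest.Agent.X212.Nk54.Main
import Crest.Agent.X212.Abx52.Ntc
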